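import Vale.Agent.P085.Defs

/-!
P085: the relative commutant of a system of matrix units as a tracial algebra, and the chain
shifted by one.
-/

open scoped InnerProductSpace
open Filter Topology

namespace VP085

open VP086

variable {A : Type} [CStarAlgebra A] {H : Type} [NormedAddCommGroup H] [InnerProductSpace ℂ H]
  {n : ℕ}

/-- The elements commuting with all matrix units of a system. -/
noncomputable def relComm (e : Fin n → Fin n → A) : StarSubalgebra ℂ A :=
  StarSubalgebra.centralizer ℂ {x | ∃ i j, x = e i j}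

lemma mem_relComm {e : Fin n → Fin n → A} (he : ∀ i j, star (e i j) = e j i) {x : A} :
    x ∈ relComm e ↔ ∀ i j, e i j * x = x * e i j := by
  rw [relComm, StarSubalgebra.mem_centralizer_iff]
  constructor
  · exact fun h i j => (h _ ⟨i, j, rfl⟩).1
  · rintro h g ⟨i, j, rfl⟩
    rw [he]
    exact ⟨h i j, h j i⟩

instance isClosed_relComm (e : Fin n → Fin n → A) : IsClosed (relComm e : Set A) := by
  rw [relComm, StarSubalgebra.coe_centralizer]
  exact Set.isClosed_centralizer _

/-- The inclusion followed by `ι`. -/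
noncomputable def resι (S : Std A H) (e : Fin n → Fin n → A) : relComm e →ₗ[ℂ] H where
  toFun x := S.ι (x : A)
  map_add' x y := S.ι.map_add x y
  map_smul' c x := S.ι.map_smul c x

/-- The restriction of the standard form. -/
noncomputable def resStd (S : Std A H) (e : Fin n → Fin n → A) : Std (relComm e) H where
  ι := resι S e
  norm_one := S.norm_one
  inner_ι x y := S.inner_ι x y
  left_le a x := S.left_le a x
  right_le a x := S.right_le a x
  tau_comm x y := S.tau_comm x y

@[simp] lemma resStd_ι (S : Std A H) (e : Fin n → Fin n → A) (x : relComm e) :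
    (resStd S e).ι x = S.ι (x : A) := rfl

/-- The restriction of a complete faithful standard form is complete and faithful. -/
noncomputable def resFac (S : Fac A H) (e : Fin n → Fin n → A)
    (he : ∀ i j, star (e i j) = e j i) : Fac (relComm e) H where
  toStd := resStd S.toStd e
  faithful x h := Subtype.ext (S.faithful _ h)
  complete x hx hc := by
    obtain ⟨a, ha, ht⟩ := S.complete (fun m => (x m : A)) hx hc
    have ham : a ∈ relComm e := by
      refine (mem_relComm he).2 fun i j => sub_eq_zero.1 (S.faithful _ (norm_eq_zero.1 ?_))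
      have h0 : Tendsto (fun m => ‖S.ι ((x m : A) - a)‖) atTop (𝓝 0) := by
        simp only [map_sub]
        exact tendsto_iff_norm_sub_tendsto_zero.1 ht
      refine tendsto_nhds_unique (f := fun _ : ℕ => ‖S.ι (e i j * a - a * e i j)‖) (l := atTop)
        tendsto_const_nhds (squeeze_zero (fun _ => norm_nonneg _)
          (g := fun m => 2 * ‖e i j‖ * ‖S.ι ((x m : A) - a)‖) (fun m => ?_)
          (by simpa using h0.const_mul (2 * ‖e i j‖)))
      have hm := (mem_relComm he).1 (x m).2 i j
      have e1 : e i j * a - a * e i j =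
          ((x m : A) - a) * e i j - e i j * ((x m : A) - a) := by
        rw [sub_mul, mul_sub, hm]; abel
      rw [e1, map_sub]
      linarith [norm_sub_le (S.ι (((x m : A) - a) * e i j)) (S.ι (e i j * ((x m : A) - a))),
        S.left_le (e i j) ((x m : A) - a), S.right_le (e i j) ((x m : A) - a)]
    exact ⟨⟨a, ham⟩, ha, ht⟩

lemma resFac_toStd (S : Fac A H) (e : Fin n → Fin n → A)
    (he : ∀ i j, star (e i j) = e j i) : (resFac S e he).toStd = resStd S.toStd e := rfl

/-- The map onto the relative commutant through the first diagonal unit. -/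
noncomputable def pull (e : Fin n → Fin n → A) (i₀ : Fin n) (y : A) : A :=
  ∑ k, e k i₀ * y * e i₀ k

variable {e : Fin n → Fin n → A}

lemma pull_mem (he : ∀ i j, star (e i j) = e j i)
    (hm : ∀ i j k l, e i j * e k l = if j = k then e i l else 0) (i₀ : Fin n) (y : A) :
    pull e i₀ y ∈ relComm e := by
  refine (mem_relComm he).2 fun i j => ?_
  rw [pull, Finset.mul_sum, Finset.sum_mul, Finset.sum_eq_single j, Finset.sum_eq_single i]
  · simp [← mul_assoc, hm, mul_assoc _ (e i₀ i) (e i j)]
  · intro k _ hk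
    simp [mul_assoc, hm, hk]
  · simp
  · intro k _ hk
    simp [← mul_assoc, hm, Ne.symm hk]
  · simp

lemma pull_eq (he : ∀ i j, star (e i j) = e j i)
    (hm : ∀ i j k l, e i j * e k l = if j = k then e i l else 0) (hs : ∑ i, e i i = 1)
    (i₀ : Fin n) {x : A} (hx : x ∈ relComm e) : pull e i₀ x = x := by
  have h : ∀ k, e k i₀ * x * e i₀ k = x * e k k := fun k => by
    rw [(mem_relComm he).1 hx k i₀, mul_assoc, hm, if_pos rfl]
  simp only [pull, h, ← Finset.mul_sum, hs, mul_one]

lemma twirl_eq (he : ∀ i j, star (e i j) = e j i)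
    (hm : ∀ i j k l, e i j * e k l = if j = k then e i l else 0) (hs : ∑ i, e i i = 1)
    (hn : n ≠ 0) {x : A} (hx : x ∈ relComm e) : twirl e x = x := by
  have h : ∀ i j, e i j * x * e j i = x * e i i := fun i j => by
    rw [(mem_relComm he).1 hx i j, mul_assoc, hm, if_pos rfl]
  simp only [twirl, h]
  rw [Finset.sum_comm]
  simp only [← Finset.mul_sum, hs, mul_one, Finset.sum_const, Finset.card_univ, Fintype.card_fin]
  rw [← Nat.cast_smul_eq_nsmul ℂ, smul_smul, inv_mul_cancel₀ (Nat.cast_ne_zero.2 hn), one_smul]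

lemma norm_pull_le (S : Std A H) (i₀ : Fin n) (y : A) :
    ‖S.ι (pull e i₀ y)‖ ≤ (∑ k, ‖e i₀ k‖ * ‖e k i₀‖) * ‖S.ι y‖ := by
  rw [pull, map_sum, Finset.sum_mul]
  refine (norm_sum_le _ _).trans (Finset.sum_le_sum fun k _ => ?_)
  calc ‖S.ι (e k i₀ * y * e i₀ k)‖ ≤ ‖e i₀ k‖ * ‖S.ι (e k i₀ * y)‖ := S.right_le _ _
    _ ≤ ‖e i₀ k‖ * (‖e k i₀‖ * ‖S.ι y‖) := by gcongr; exact S.left_le _ _
    _ = _ := by ring

variable {S : Fac A H} (C : Chain S)

lemma Chain.zero_lt (K : ℕ) : 0 < C.n K := by have := C.four_le K; omega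

/-- The units of the later systems, inside the relative commutant of the first. -/
noncomputable def Chain.tailUnit (K : ℕ) (i j : Fin (C.n (K + 1))) : relComm (C.e 0) :=
  ⟨C.e (K + 1) i j, (mem_relComm (C.star_e 0)).2 fun k l =>
    C.comm 0 (K + 1) (Nat.succ_ne_zero K).symm k l i j⟩

lemma Chain.coe_avgTo_tail (x : relComm (C.e 0)) : ∀ K,
    ((avgTo (fun K => C.n (K + 1)) C.tailUnit K x : relComm (C.e 0)) : A) =
      avgTo C.n C.e (K + 1) (x : A)
  | 0 => (twirl_eq (C.star_e 0) (C.mul_e 0) (C.sum_e 0) (C.zero_lt 0).ne' x.2).symm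
  | K + 1 => by
    change ((twirl (C.tailUnit K) (avgTo (fun K => C.n (K + 1)) C.tailUnit K x) :
      relComm (C.e 0)) : A) = twirl (C.e (K + 1)) (avgTo C.n C.e (K + 1) (x : A))
    rw [← Chain.coe_avgTo_tail x K]
    simp [twirl, Chain.tailUnit]

/-- The chain shifted by one. -/
noncomputable def Chain.tail : Chain (resFac S (C.e 0) (C.star_e 0)) where
  n K := C.n (K + 1)
  four_le K := C.four_le _
  e := C.tailUnit
  star_e K i j := Subtype.ext (C.star_e _ i j)
  mul_e K i j k l := Subtype.ext (by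
    rw [apply_ite Subtype.val]; exact C.mul_e _ i j k l)
  sum_e K := Subtype.ext (by simpa [Chain.tailUnit] using C.sum_e (K + 1))
  comm K K' h i j k l := Subtype.ext (C.comm _ _ (fun h' => h (Nat.succ_injective h')) i j k l)
  scal x := by
    have h := (C.scal (x : A)).comp (tendsto_add_atTop_nat 1)
    simpa [resFac, Function.comp_def, C.coe_avgTo_tail, Std.τ] using h

lemma resFac_sepTwo (hsep : S.SepTwo) : (resFac S (C.e 0) (C.star_e 0)).SepTwo := by
  obtain ⟨D, hD⟩ := hsep
  set i₀ : Fin (C.n 0) := ⟨0, C.zero_lt 0⟩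
  refine ⟨fun i => ⟨pull (C.e 0) i₀ (D i), pull_mem (C.star_e 0) (C.mul_e 0) i₀ _⟩,
    fun x ε hε => ?_⟩
  set c := ∑ k, ‖C.e 0 i₀ k‖ * ‖C.e 0 k i₀‖ with hc
  have hc0 : 0 ≤ c := Finset.sum_nonneg fun k _ => by positivity
  obtain ⟨i, hi⟩ := hD (x : A) (ε / (c + 1)) (by positivity)
  refine ⟨i, ?_⟩
  have e1 : pull (C.e 0) i₀ (D i) - (x : A) = pull (C.e 0) i₀ (D i - (x : A)) := by
    conv_lhs => rw [← pull_eq (C.star_e 0) (C.mul_e 0) (C.sum_e 0) i₀ x.2]
    simp [pull, mul_sub, sub_mul, Finset.sum_sub_distrib]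
  change ‖S.ι (pull (C.e 0) i₀ (D i) - (x : A))‖ < ε
  rw [e1]
  refine (norm_pull_le S.toStd i₀ _).trans_lt ?_
  rw [lt_div_iff₀ (by positivity)] at hi
  nlinarith [norm_nonneg (S.ι (D i - (x : A)))]

end VP085
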