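import Vale.Agent.P085.Corner.Commutant

/-!
P085: one generator from four generators of the relative commutant of eight by eight units.
-/

open scoped InnerProductSpace

namespace VP085

open VP086

variable {A : Type} [CStarAlgebra A]

/-- The coefficient `1` next to the diagonal. -/
def adj (i j : Fin 8) : Prop := j.val = i.val + 1 ∨ i.val = j.val + 1

instance (i j : Fin 8) : Decidable (adj i j) := by unfold adj; infer_instance

/-- A self-adjoint element carrying eight elements and the tridiagonal shift. -/
noncomputable def band (e : Fin 8 → Fin 8 → A) (y : Fin 8 → A) : A :=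
  ∑ i, y i * e i i + ∑ i, ∑ j, if adj i j then e i j else 0

variable {e : Fin 8 → Fin 8 → A}

lemma band_star (he : ∀ i j, star (e i j) = e j i) {y : Fin 8 → A}
    (hy : ∀ i, y i ∈ relComm e) (hsa : ∀ i, star (y i) = y i) :
    star (band e y) = band e y := by
  simp only [band, star_add, star_sum, star_mul, hsa, he, apply_ite star, star_zero,
    (mem_relComm he).1 (hy _) _ _]
  congr 1
  rw [Finset.sum_comm]
  refine Finset.sum_congr rfl fun i _ => Finset.sum_congr rfl fun j _ => ?_
  simp [adj, or_comm]

lemma band_entry (he : ∀ i j, star (e i j) = e j i)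
    (hm : ∀ i j k l, e i j * e k l = if j = k then e i l else 0) {y : Fin 8 → A}
    (hy : ∀ i, y i ∈ relComm e) (k l : Fin 8) :
    e k k * band e y * e l l =
      (if k = l then y k * e k k else 0) + (if adj k l then e k l else 0) := by
  have h : ∀ i, e k k * (y i * e i i) = y i * (e k k * e i i) := fun i => by
    rw [← mul_assoc, (mem_relComm he).1 (hy i) k k, mul_assoc]
  rw [band, mul_add, add_mul]
  congr 1
  · simp only [Finset.mul_sum, Finset.sum_mul, h, mul_assoc, hm]
    rw [Finset.sum_eq_single k]
    · by_cases hkl : k = l <;> simp [hm, hkl]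
    · intro i _ hi; simp [Ne.symm hi]
    · simp
  · simp only [Finset.mul_sum, Finset.sum_mul, mul_ite, ite_mul, mul_zero, zero_mul]
    rw [Finset.sum_eq_single k, Finset.sum_eq_single l]
    · simp [hm]
    · intro j _ hj; simp [hm, hj]
    · simp
    · intro i _ hi
      exact Finset.sum_eq_zero fun j _ => by simp [hm, Ne.symm hi]
    · simp

/-- A star subalgebra containing `e 0 0` and a band element contains the units and the entries. -/
theorem mem_of_band (he : ∀ i j, star (e i j) = e j i)
    (hm : ∀ i j k l, e i j * e k l = if j = k then e i l else 0) (hs : ∑ i, e i i = 1)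
    (B : StarSubalgebra ℂ A) {y : Fin 8 → A} (hy : ∀ i, y i ∈ relComm e)
    (h0 : e 0 0 ∈ B) (hT : band e y ∈ B) : (∀ i j, e i j ∈ B) ∧ ∀ i, y i ∈ B := by
  set T := band e y with hTdef
  have main : ∀ k : ℕ, ∀ i : Fin 8, i.val ≤ k → e i 0 ∈ B := by
    intro k
    induction k with
    | zero =>
      intro i hi
      obtain rfl : i = 0 := Fin.ext (Nat.le_zero.1 hi)
      exact h0
    | succ k ih =>
      intro i hi
      rcases Nat.lt_or_ge k i.val with hik | hik
      · have hik : i.val = k + 1 := by omega
        set j : Fin 8 := ⟨k, by omega⟩ with hj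
        have hd : ∀ l : Fin 8, l.val ≤ k → e l l ∈ B := fun l hl => by
          have := mul_mem (ih l hl) (star_mem (ih l hl))
          rwa [he, hm, if_pos rfl] at this
        have hP : ∑ l ∈ Finset.univ.filter (fun l : Fin 8 => l.val ≤ k), e l l ∈ B :=
          sum_mem fun l hl => hd l (Finset.mem_filter.1 hl).2
        have hQ : (∑ l ∈ Finset.univ.filter (fun l : Fin 8 => ¬ l.val ≤ k), e l l) ∈ B := by
          have := sub_mem (one_mem B) hP
          rwa [← hs, ← Finset.sum_filter_add_sum_filter_not Finset.univ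
            (fun l : Fin 8 => l.val ≤ k), add_sub_cancel_left] at this
        have hij : e i j = (∑ l ∈ Finset.univ.filter (fun l : Fin 8 => ¬ l.val ≤ k), e l l)
            * T * e j j := by
          rw [Finset.sum_mul, Finset.sum_mul, Finset.sum_eq_single i]
          · rw [band_entry he hm hy, if_neg (fun h => by rw [h] at hik; simp [hj] at hik),
              if_pos (show adj i j from Or.inr (by simpa [hj] using hik)), zero_add]
          · intro l hl hli
            simp only [Finset.mem_filter] at hl
            have hlj : l ≠ j := fun h => hl.2 (by simp [h, hj])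
            have hadj : ¬ adj l j := fun h => by
              rcases h with h | h <;> simp [hj] at h
              · omega
              · exact hli (Fin.ext (by omega))
            rw [band_entry he hm hy, if_neg hlj, if_neg hadj, add_zero]
          · intro h; exact absurd (Finset.mem_filter.2 ⟨Finset.mem_univ _, by omega⟩) h
        have h1 : e i j ∈ B := hij ▸ mul_mem (mul_mem hQ hT) (hd j le_rfl)
        have := mul_mem h1 (ih j le_rfl)
        rwa [hm, if_pos rfl] at this
      · exact ih i hik
  have hu : ∀ i j, e i j ∈ B := fun i j => by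
    have := mul_mem (main _ i le_rfl) (star_mem (main _ j le_rfl))
    rwa [he, hm, if_pos rfl] at this
  refine ⟨hu, fun i => ?_⟩
  have hi : y i * e i i ∈ B := by
    have := mul_mem (mul_mem (hu i i) hT) (hu i i)
    rwa [band_entry he hm hy, if_pos rfl, if_neg (by simp [adj]), add_zero] at this
  have hk : ∀ k, y i * e k k = e k i * (y i * e i i) * e i k := fun k => by
    rw [← mul_assoc, (mem_relComm he).1 (hy i) k i]
    simp [mul_assoc, hm]
  have : y i = ∑ k, e k i * (y i * e i i) * e i k := by
    simp only [← hk, ← Finset.mul_sum, hs, mul_one]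
  rw [this]
  exact sum_mem fun k _ => mul_mem (mul_mem (hu k i) hi) (hu i k)

/-- One element carrying `e 0 0` and a band. -/
theorem exists_gen (he : ∀ i j, star (e i j) = e j i)
    (hm : ∀ i j k l, e i j * e k l = if j = k then e i l else 0) (hs : ∑ i, e i i = 1)
    (g : Fin 4 → A) (hg : ∀ i, g i ∈ relComm e) :
    ∃ a : A, ∀ B : StarSubalgebra ℂ A, a ∈ B →
      (∀ i j, e i j ∈ B) ∧ ∀ i, g i ∈ B := by
  let x : Fin 4 × Fin 2 → A := fun p =>
    if p.2 = 0 then (realPart (g p.1) : A) else (imaginaryPart (g p.1) : A)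
  let y : Fin 8 → A := fun i => x (finProdFinEquiv.symm i)
  have hxm : ∀ p, x p ∈ relComm e := fun p => by
    have h1 : (realPart (g p.1) : A) ∈ relComm e := by
      rw [realPart_apply_coe, ← Complex.coe_smul]
      exact SMulMemClass.smul_mem _ (add_mem (hg _) (star_mem (hg _)))
    have h2 : (imaginaryPart (g p.1) : A) ∈ relComm e := by
      rw [imaginaryPart_apply_coe, ← Complex.coe_smul]
      exact SMulMemClass.smul_mem _ (SMulMemClass.smul_mem _ (sub_mem (hg _) (star_mem (hg _))))
    by_cases h : p.2 = 0 <;> simp [x, h, h1, h2]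
  have hxs : ∀ p, star (x p) = x p := fun p => by
    by_cases h : p.2 = 0 <;> simp [x, h, (realPart (g p.1)).2.star_eq,
      (imaginaryPart (g p.1)).2.star_eq]
  have hT : star (band e y) = band e y := band_star he (fun i => hxm _) fun i => hxs _
  refine ⟨e 0 0 + Complex.I • band e y, fun B ha => ?_⟩
  set a := e 0 0 + Complex.I • band e y with hadef
  have hsa : star a = e 0 0 - Complex.I • band e y := by
    simp [hadef, star_smul, hT, he, sub_eq_add_neg]
  have h0 : e 0 0 ∈ B := by
    have h := SMulMemClass.smul_mem (2 : ℂ)⁻¹ (add_mem ha (star_mem ha))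
    rwa [hsa, hadef, add_add_sub_cancel, ← two_smul ℂ, smul_smul, inv_mul_cancel₀ two_ne_zero,
      one_smul] at h
  have h1 : band e y ∈ B := by
    have h := SMulMemClass.smul_mem (-Complex.I) (sub_mem ha h0)
    rwa [hadef, add_sub_cancel_left, smul_smul, neg_mul, Complex.I_mul_I, neg_neg, one_smul] at h
  obtain ⟨hu, hyB⟩ := mem_of_band he hm hs B (fun i => hxm _) h0 h1
  refine ⟨hu, fun i => ?_⟩
  have hp : ∀ p, x p ∈ B := fun p => by simpa [y] using hyB (finProdFinEquiv p)
  have hr : (realPart (g i) : A) ∈ B := by simpa [x] using hp (i, 0)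
  have hi : (imaginaryPart (g i) : A) ∈ B := by simpa [x] using hp (i, 1)
  rw [← realPart_add_I_smul_imaginaryPart (g i)]
  exact add_mem hr (SMulMemClass.smul_mem _ hi)

theorem exists_gen_cast {m : ℕ} (hm8 : m = 8) (e : Fin m → Fin m → A)
    (he : ∀ i j, star (e i j) = e j i)
    (hm : ∀ i j k l, e i j * e k l = if j = k then e i l else 0) (hs : ∑ i, e i i = 1)
    (g : Fin 4 → A) (hg : ∀ i, g i ∈ relComm e) :
    ∃ a : A, ∀ B : StarSubalgebra ℂ A, a ∈ B →
      (∀ i j, e i j ∈ B) ∧ ∀ i, g i ∈ B := by
  subst hm8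
  exact exists_gen he hm hs g hg

/-- CORNER: four generators of relative commutants give one generator. -/
theorem cornerSpec : CornerSpec := by
  intro hcore A _ H _ _ S C hC hsep
  obtain ⟨g, hg⟩ := hcore (relComm (C.e 0)) H (resFac S (C.e 0) (C.star_e 0)) C.tail
    (resFac_sepTwo C hsep)
  obtain ⟨a, ha⟩ := exists_gen_cast hC (C.e 0) (C.star_e 0) (C.mul_e 0) (C.sum_e 0)
    (fun i => (g i : A)) (fun i => (g i).2)
  refine ⟨a, ?_⟩
  obtain ⟨hu, hgB⟩ := ha (l2Closure S.toStd {a})
    (adjoin_le_l2Closure _ _ (StarAlgebra.subset_adjoin ℂ _ rfl))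
  have hcm : ∀ z : relComm (C.e 0), (z : A) ∈ l2Closure S.toStd {a} := fun z => by
    refine mem_l2Closure_of_forall S.toStd fun ε hε => ?_
    obtain ⟨-, ⟨p, hp, rfl⟩, hd⟩ := Metric.mem_closure_iff.1 (hg z) ε hε
    refine ⟨(p : A), ?_, by
      rw [dist_comm, dist_eq_norm] at hd
      rw [map_sub]; exact hd⟩
    have hle : StarAlgebra.adjoin ℂ (Set.range g) ≤
        (l2Closure S.toStd {a}).comap (relComm (C.e 0)).subtype :=
      StarAlgebra.adjoin_le (by rintro _ ⟨i, rfl⟩; exact hgB i)
    exact hle hp
  intro x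
  have hdec : x = ∑ i, ∑ j, C.e 0 i j * (∑ k, C.e 0 k i * x * C.e 0 j k) := by
    have h : ∀ i j, C.e 0 i j * (∑ k, C.e 0 k i * x * C.e 0 j k)
        = C.e 0 i i * x * C.e 0 j j := fun i j => by
      rw [Finset.mul_sum, Finset.sum_eq_single j]
      · simp [← mul_assoc, C.mul_e]
      · intro k _ hk; simp [← mul_assoc, C.mul_e, Ne.symm hk]
      · simp
    simp only [h, ← Finset.mul_sum, ← Finset.sum_mul, C.sum_e, one_mul, mul_one]
  rw [hdec]
  refine sum_mem fun i _ => sum_mem fun j _ => mul_mem (hu i j) ?_
  have hz : (∑ k, C.e 0 k i * x * C.e 0 j k) ∈ relComm (C.e 0) := by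
    refine (mem_relComm (C.star_e 0)).2 fun p q => ?_
    rw [Finset.mul_sum, Finset.sum_mul, Finset.sum_eq_single q, Finset.sum_eq_single p]
    · simp [← mul_assoc, C.mul_e, mul_assoc _ (C.e 0 j p) (C.e 0 p q)]
    · intro k _ hk; simp [mul_assoc, C.mul_e, hk]
    · simp
    · intro k _ hk; simp [← mul_assoc, C.mul_e, Ne.symm hk]
    · simp
  exact hcm ⟨_, hz⟩

end VP085
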